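import Vale.Agent.P180.H768.Group2
import Vale.Agent.P180.H768.G1
import Vale.Agent.P180.R2.H365.RedAll
import Vale.Agent.P180.R2.H471.AltSS

/-!
P180: components of a reduced group.
-/

set_option linter.all false

namespace Vale.Agent.P180.R2.H365

open Vale.Agent.P180 Vale.Agent.P180.H768.Gd Vale.Agent.P180.R2.H47
open Vale.Agent.P180.H768 hiding pull mem_pull exists_factor Lay mk_mem comm_mem

open scoped Nat commutatorElement

universe u

theorem comps {p : ℕ} [Fact p.Prime] {G : Type} [Group G] [Finite G]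
    (C W : Subgroup G) [C.Normal] [W.Normal] (hWC : W ≤ C)
    (hcent : ∀ w ∈ W, ∀ c ∈ C, w * c = c * w)
    (hC : ∀ X : Subgroup G, X.Normal → W ≤ X → X ≤ C → X ≠ W →
      ¬ (∀ x ∈ X, ∃ n : ℕ, x ^ p ^ n ∈ W) ∧ p ∣ W.relIndex X) :
    ∃ 𝒮 : Set (Subgroup G),
      (∀ S ∈ 𝒮, W ≤ S ∧ S ≤ C ∧ S ≠ W ∧ (∀ x ∈ S, (∀ y ∈ S, x * y = y * x) → x ∈ W) ∧
        IsSimpleGroup (S.map (QuotientGroup.mk' W)) ∧
        (¬ ∀ x ∈ S.map (QuotientGroup.mk' W), ∀ y ∈ S.map (QuotientGroup.mk' W), x * y = y * x) ∧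
        p ∣ Nat.card (S.map (QuotientGroup.mk' W))) ∧
      (∀ S ∈ 𝒮, ∀ S' ∈ 𝒮, S ≠ S' → ∀ x ∈ S, ∀ y ∈ S', x * y = y * x) ∧
      (∀ S ∈ 𝒮, ∀ g : G, S.map (MulAut.conj g).toMonoidHom ∈ 𝒮) ∧
      (∀ c ∈ C, (∀ S ∈ 𝒮, ∀ x ∈ S, c * x * c⁻¹ * x⁻¹ ∈ W) → c ∈ W) := by
  let π := QuotientGroup.mk' W
  have hπ : Function.Surjective π := QuotientGroup.mk'_surjective W
  have hker : π.ker = W := QuotientGroup.ker_mk' W
  have hπW : ∀ x, π x = 1 ↔ x ∈ W := fun x => QuotientGroup.eq_one_iff x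
  have hCn : (C.map π).Normal := Subgroup.Normal.map inferInstance π hπ
  have hcm : (C.map π).comap π = C := by
    rw [Subgroup.comap_map_eq, hker, sup_eq_left.mpr hWC]
  have hmc : ∀ X : Subgroup (G ⧸ W), (X.comap π).map π = X :=
    fun X => Subgroup.map_comap_eq_self_of_surjective hπ X
  have hWle : ∀ X : Subgroup (G ⧸ W), W ≤ X.comap π := by
    intro X x hx
    rw [Subgroup.mem_comap, (hπW x).mpr hx]
    exact X.one_mem
  have hneW : ∀ X : Subgroup (G ⧸ W), X ≠ ⊥ → X.comap π ≠ W := by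
    intro X hX h
    apply hX
    rw [← hmc X, h, Subgroup.map_eq_bot_iff, hker]
  obtain ⟨𝒮, h1, h2, h3, h4⟩ := Vale.Agent.P180.H768.Gd.group_theory' (p := p) (C.map π) ⊤
    (fun S => p ∣ Nat.card S) (fun S _ _ h => h) (by
    intro X hX hXC hX0
    have hX' : X.comap π ≤ C := by
      rw [← hcm]; exact Subgroup.comap_mono hXC
    obtain ⟨h5, h6⟩ := hC (X.comap π) (hX.comap π) (hWle X) hX' (hneW X hX0)
    rw [relIndex_eq_card_map, hmc X] at h6
    refine ⟨fun h8 => h5 ?_, h6, by rwa [inf_top_eq]⟩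
    intro x hx
    obtain ⟨n, hn⟩ := h8 ⟨π x, hx⟩
    refine ⟨n, ?_⟩
    rw [← hπW, map_pow]
    exact congrArg Subtype.val hn)
  refine ⟨(fun X => X.comap π) '' 𝒮, ?_, ?_, ?_, ?_⟩
  · rintro _ ⟨S, hS, rfl⟩
    obtain ⟨hSC, hS0, hSm, hSs, hSn⟩ := h1 S hS
    refine ⟨hWle S, ?_, hneW S hS0, ?_, ?_, ?_, ?_⟩
    · change S.comap π ≤ C
      rw [← hcm]; exact Subgroup.comap_mono hSC
    · intro x hx hc
      rw [← hπW]
      apply center_trivial hSs hSn hx
      intro y hy
      obtain ⟨y', rfl⟩ := hπ y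
      rw [← map_mul, hc y' hy, map_mul]
    · change IsSimpleGroup ((S.comap π).map π)
      rw [hmc S]
      exact hSs
    · change ¬ ∀ x ∈ (S.comap π).map π, ∀ y ∈ (S.comap π).map π, x * y = y * x
      rw [hmc S]
      exact hSn
    · change p ∣ Nat.card ((S.comap π).map π)
      rw [hmc S]
      exact hSm
  · rintro _ ⟨S, hS, rfl⟩ _ ⟨S', hS', rfl⟩ hne x hx y hy
    have hne' : S ≠ S' := fun h => hne (by rw [h])
    obtain ⟨hSC, hS0, hSm, hSs, hSn⟩ := h1 S hS
    have hSC' : S.comap π ≤ C := by rw [← hcm]; exact Subgroup.comap_mono hSC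
    obtain ⟨hTC, _, _, _, _⟩ := h1 S' hS'
    have hTC' : S'.comap π ≤ C := by rw [← hcm]; exact Subgroup.comap_mono hTC
    have hyC : y ∈ C := hTC' hy
    have hcW : ∀ s ∈ S.comap π, s * y * s⁻¹ * y⁻¹ ∈ W := by
      intro s hs
      rw [← hπW, map_mul, map_mul, map_mul, h2 S hS S' hS' hne' _ hs _ hy, map_inv, map_inv]
      group
    let c : (S.comap π) →* G :=
      { toFun := fun s => s * y * (s : G)⁻¹ * y⁻¹
        map_one' := by simp
        map_mul' := by
          intro s t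
          change (s : G) * t * y * ((s : G) * t)⁻¹ * y⁻¹ =
            (s : G) * y * (s : G)⁻¹ * y⁻¹ * ((t : G) * y * (t : G)⁻¹ * y⁻¹)
          have h5 := hcent _ (hcW t t.2) _ (hSC' s.2)
          have h6 := hcent _ (hcW t t.2) ((s : G) * y * (s : G)⁻¹ * y⁻¹) (hWC (hcW s s.2))
          calc (s : G) * t * y * ((s : G) * t)⁻¹ * y⁻¹
              = s * ((t : G) * y * (t : G)⁻¹ * y⁻¹) * (y * (s : G)⁻¹ * y⁻¹) := by group
            _ = ((t : G) * y * (t : G)⁻¹ * y⁻¹) * s * (y * (s : G)⁻¹ * y⁻¹) := by rw [← h5]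
            _ = ((t : G) * y * (t : G)⁻¹ * y⁻¹) * ((s : G) * y * (s : G)⁻¹ * y⁻¹) := by group
            _ = _ := h6 }
    have hcomm : ∀ s t : S.comap π, c (s * t) = c (t * s) := by
      intro s t
      rw [map_mul, map_mul]
      exact hcent _ (hcW s s.2) _ (hWC (hcW t t.2))
    let πS : (S.comap π) →* S :=
      { toFun := fun s => ⟨π s, s.2⟩
        map_one' := Subtype.ext (map_one π)
        map_mul' := fun s t => Subtype.ext (map_mul π (s : G) (t : G)) }
    have hπS : Function.Surjective πS := by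
      rintro ⟨s, hs⟩
      obtain ⟨s', rfl⟩ := hπ s
      exact ⟨⟨s', hs⟩, rfl⟩
    have hKn : (c.ker.map πS).Normal := Subgroup.Normal.map inferInstance πS hπS
    have hgoal : c ⟨x, hx⟩ = 1 → x * y = y * x := by
      intro h
      have h' : x * y * x⁻¹ * y⁻¹ = 1 := h
      rwa [mul_inv_eq_one, mul_inv_eq_iff_eq_mul] at h'
    apply hgoal
    rcases hSs.eq_bot_or_eq_top_of_normal _ hKn with h | h
    · exfalso
      apply hSn
      intro u hu v hv
      obtain ⟨u', rfl⟩ := hπ u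
      obtain ⟨v', rfl⟩ := hπ v
      let s : S.comap π := ⟨u', hu⟩
      let t : S.comap π := ⟨v', hv⟩
      have h5 : s * t * (t * s)⁻¹ ∈ c.ker := by
        rw [MonoidHom.mem_ker, map_mul, map_inv, hcomm s t, mul_inv_cancel]
      have h6 : πS (s * t * (t * s)⁻¹) ∈ c.ker.map πS := ⟨_, h5, rfl⟩
      rw [h, Subgroup.mem_bot, map_mul, map_inv, mul_inv_eq_one] at h6
      have h7 := congrArg Subtype.val h6
      have h8 : π (u' * v') = π (v' * u') := h7
      rwa [map_mul, map_mul] at h8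
    · have h5 : πS ⟨x, hx⟩ ∈ c.ker.map πS := by rw [h]; exact Subgroup.mem_top _
      obtain ⟨z, hz, hzx⟩ := h5
      have h6 : π (z : G) = π x := congrArg Subtype.val hzx
      have h7 : (z : G)⁻¹ * x ∈ W := by
        rw [← hπW, map_mul, map_inv, h6, inv_mul_cancel]
      have h8 : (⟨x, hx⟩ : S.comap π) = z * ⟨(z : G)⁻¹ * x, hWle S h7⟩ := by
        apply Subtype.ext
        change x = z * ((z : G)⁻¹ * x)
        rw [mul_inv_cancel_left]
      rw [h8, map_mul, show c z = 1 from hz, one_mul]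
      change (z : G)⁻¹ * x * y * ((z : G)⁻¹ * x)⁻¹ * y⁻¹ = 1
      rw [mul_inv_eq_one, mul_inv_eq_iff_eq_mul]
      exact hcent _ h7 y hyC
  · rintro _ ⟨S, hS, rfl⟩ g
    refine ⟨_, h3 S hS (π g), ?_⟩
    ext x
    rw [Subgroup.mem_comap, mem_map_conj, mem_map_conj, Subgroup.mem_comap, map_mul, map_mul,
      map_inv]
  · intro c hc hcS
    rw [← hπW]
    apply h4 (π c) (Subgroup.mem_map_of_mem π hc)
    intro S hS x hx
    obtain ⟨y, rfl⟩ := hπ x
    have h5 := hcS _ ⟨S, hS, rfl⟩ y hx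
    rw [← hπW, map_mul, map_mul, map_mul, map_inv, map_inv, mul_inv_eq_one,
      mul_inv_eq_iff_eq_mul] at h5
    exact h5

theorem red_struct {k : Type u} [Field k] {p n : ℕ} [Fact p.Prime] [CharP k p] {G : Type}
    [Group G] [Finite G] {Z : Subgroup G}
    {D : Subgroup G} {a b : MonoidAlgebra k G} (hs : Rs p n Z D a b) (hST : STab b)
    (hNR : NRed p Z ⊤ b) :
    ∃ (C W Y0 : Subgroup G) (_ : C.Normal) (_ : W.Normal) (_ : Y0.Normal)
      (𝒮 : Set (Subgroup G)), IsPGroup p Y0 ∧ W = Z ⊔ Y0 ∧ W ≤ C ∧ (∀ w ∈ W, ∀ c ∈ C, w * c = c * w) ∧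
      Z.relIndex W ≤ n ∧ C.index ≤ n ! ∧
      (∀ S ∈ 𝒮, W ≤ S ∧ S ≤ C ∧ S ≠ W ∧ (∀ x ∈ S, (∀ y ∈ S, x * y = y * x) → x ∈ W) ∧
        IsSimpleGroup (S.map (QuotientGroup.mk' W)) ∧
        (¬ ∀ x ∈ S.map (QuotientGroup.mk' W), ∀ y ∈ S.map (QuotientGroup.mk' W), x * y = y * x) ∧
        p ∣ Nat.card (S.map (QuotientGroup.mk' W))) ∧
      (∀ S ∈ 𝒮, ∀ S' ∈ 𝒮, S ≠ S' → ∀ x ∈ S, ∀ y ∈ S', x * y = y * x) ∧
      (∀ S ∈ 𝒮, ∀ g : G, S.map (MulAut.conj g).toMonoidHom ∈ 𝒮) ∧
      (∀ c ∈ C, (∀ S ∈ 𝒮, ∀ x ∈ S, c * x * c⁻¹ * x⁻¹ ∈ W) → c ∈ W) ∧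
      Nat.card 𝒮 ≤ n ∧
      (∀ S ∈ 𝒮, IsLocalChar p n (S.map (QuotientGroup.mk' W)) →
        ∃ P : Sylow p (S.map (QuotientGroup.mk' W)), Nat.card P ≤ n) ∧
      Y0 ≤ D ∧ (∀ S ∈ 𝒮, ∃ r ∈ D, r ∈ S ∧ r ∉ W) := by
  obtain ⟨hDp, hZ, hpZ, hb, ha, hba, hDn⟩ := hs
  set B : Subgroup G := ⊤ with hBdef
  have hZB : Z ≤ B := le_top
  classical
  have hb1 := isBlock_iff.mp hb
  have hbF : b ∈ Fix (cj k G) ⊤ := hb1.mem.2
  have hbc : ∀ x, x * b = b * x := fun x => commute_of_mem (SubAlg_top x) hbF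
  have hZn : Z.Normal := by
    constructor
    intro z hz g
    rw [← hZ z hz g, mul_inv_cancel_right]
    exact hz
  obtain ⟨V', hVn', hVp', hVmax'⟩ := exists_Op (p := p) (G := G)
  set V := V' ⊓ B with hVdef
  have hVn : V.Normal := inferInstance
  have hVp : IsPGroup p V := hVp'.to_le inf_le_left
  have hVmax : ∀ P : Subgroup G, P.Normal → IsPGroup p P → P ≤ B → P ≤ V :=
    fun P h1 h2 h3 => le_inf (hVmax' P h1 h2) h3
  have hVD : V ≤ D := op_le p hVp hb.idem hb.ne_zero ha hba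
  have hVcard : Nat.card V ≤ n := (Nat.card_le_card_of_injective _
    (Subgroup.inclusion_injective hVD)).trans hDn
  set C' := Subgroup.centralizer (V : Set G) with hCdef'
  have hCn' : C'.Normal := inferInstance
  set C := C' ⊓ B with hCdef
  have hCn : C.Normal := inferInstance
  have hCB : C ≤ B := inf_le_right
  set Y0 := V ⊓ C with hY0
  have hY0n : Y0.Normal := inferInstance
  have hY0p : IsPGroup p Y0 := hVp.to_le inf_le_left
  set W := Z ⊔ Y0 with hWdef
  have hWn : W.Normal := inferInstance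
  have hZC : Z ≤ C := by
    intro z hz
    refine Subgroup.mem_inf.mpr ⟨?_, hZB hz⟩
    rw [hCdef', Subgroup.mem_centralizer_iff]
    intro v _
    exact (hZ z hz v).symm
  have hWC : W ≤ C := sup_le hZC inf_le_right
  have hcent : ∀ w ∈ W, ∀ c ∈ C, w * c = c * w := by
    have h1 : W ≤ Subgroup.centralizer (C : Set G) := by
      refine sup_le ?_ ?_
      · intro z hz
        rw [Subgroup.mem_centralizer_iff]
        intro v _
        exact (hZ z hz v).symm
      · intro y hy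
        rw [Subgroup.mem_centralizer_iff]
        intro c hc
        exact ((Subgroup.mem_centralizer_iff.mp (Subgroup.mem_inf.mp hc).1) y
          (Subgroup.mem_inf.mp hy).1).symm
    intro w hw c hc
    exact (Subgroup.mem_centralizer_iff.mp (h1 hw) c hc).symm
  have hcardW : Nat.card W = Nat.card Z * Nat.card Y0 := card_sup_eq hpZ hY0p
  have hrelW : Y0.relIndex W = Nat.card Z := relIndex_sup_eq hpZ hY0p
  have hY0W : Y0 ≤ W := le_sup_right
  -- the application of the group theory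
  obtain ⟨𝒮, h1, h2, h3, h4⟩ := comps (p := p) C W hWC hcent (by
    intro X hXn hWX hXC hXW
    refine ⟨?_, ?_⟩
    · intro hX
      apply hXW
      refine le_antisymm ?_ hWX
      have hX' : ∀ x ∈ X, ∃ n : ℕ, x ^ p ^ n ∈ Z := by
        intro x hx
        obtain ⟨i, hi⟩ := hX x hx
        obtain ⟨z, hz, y, hy, hzy⟩ := mem_sup_of_commute (fun z hz y _ => hZ z hz y) hi
        obtain ⟨j, hj⟩ := hY0p ⟨y, hy⟩
        have hj' : y ^ p ^ j = 1 := congrArg Subtype.val hj
        refine ⟨i + j, ?_⟩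
        rw [pow_add, pow_mul, ← hzy, (show Commute z y from hZ z hz y).mul_pow, hj', mul_one]
        exact Z.pow_mem hz _
      obtain ⟨P, hPn, hPp, hPX, hXP⟩ := exists_normal_pSubgroup hZ hpZ
        ((le_sup_left (a := Z) (b := Y0)).trans hWX) hX'
      refine hXP.trans (sup_le le_sup_left ?_)
      exact (le_inf (hVmax P hPn hPp ((hPX.trans hXC).trans hCB)) (hPX.trans hXC)).trans hY0W
    · by_contra hnd
      apply hXW
      have hY0X : Y0 ≤ X := hY0W.trans hWX
      have hnd' : ¬ p ∣ Y0.relIndex X := by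
        rw [← Subgroup.relIndex_mul_relIndex _ _ _ hY0W hWX, hrelW]
        intro hd
        rcases (Nat.Prime.dvd_mul Fact.out).mp hd with h | h
        · exact hpZ h
        · exact hnd h
      obtain ⟨e, he, hbe⟩ := exists_isPrimIn (ZAlg k X) (by exact ZAlg_comm) hb.ne_zero
      have hcard := hNR X Y0 hXn hY0n ((le_sup_left (a := Z) (b := Y0)).trans hWX) (hXC.trans hCB) hY0X hY0p
        (fun y hy x hx => hcent y (hY0W hy) x (hXC hx)) e he hbe
        ⟨_, Subalgebra.smul_mem _ he.mem.1 _, Subalgebra.smul_mem _ (Fix_mono _ hY0X he.mem.2) _,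
          eq_tr_of_not_dvd p hnd' he.mem.2⟩
      rw [← hcardW] at hcard
      exact (Subgroup.eq_of_le_of_card_ge hWX hcard.le).symm)
  -- the subgroup `E`
  set E := W ⊔ sSup 𝒮 with hE
  have hSE : ∀ S ∈ 𝒮, S ≤ E := fun S hS => (le_sSup hS).trans le_sup_right
  have hsupn : ∀ 𝒯 : Set (Subgroup G),
      (∀ S ∈ 𝒯, ∀ g : G, S.map (MulAut.conj g).toMonoidHom ∈ 𝒯) → (W ⊔ sSup 𝒯).Normal := by
    intro 𝒯 h𝒯
    have h5 : (sSup 𝒯).Normal := by
      constructor
      intro x hx g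
      have h6 : sSup 𝒯 ≤ (sSup 𝒯).comap (MulAut.conj g).toMonoidHom := by
        refine sSup_le fun S hS => ?_
        rw [← Subgroup.map_le_iff_le_comap]
        exact le_sSup (h𝒯 S hS g)
      exact h6 hx
    infer_instance
  have hEn : E.Normal := hsupn 𝒮 h3
  have hWcentE : ∀ S ∈ 𝒮, ∀ w ∈ W, ∀ x ∈ S, w * x = x * w :=
    fun S hS w hw x hx => hcent w hw x ((h1 S hS).2.1 hx)
  obtain ⟨e, he, hbe⟩ := exists_isPrimIn (ZAlg k E) (by exact ZAlg_comm) hb.ne_zero
  have hest := hST E hEn e he hbe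
  have hbee : b * e = b := mul_stable_eq hb1 he hest hbe
  obtain ⟨x, a', ha'E, ha'F, hea'⟩ := covering he hb.idem (by rwa [hbc e]) ha hba
  set R := E ⊓ conjS x D with hR
  have hRcard : Nat.card R ≤ n := by
    refine le_trans ?_ hDn
    have h5 : Nat.card (conjS x D) = Nat.card D :=
      Nat.card_congr (D.equivMapOfInjective _ (MulAut.conj x).injective).symm.toEquiv
    rw [← h5]
    exact Nat.card_le_card_of_injective _ (Subgroup.inclusion_injective inf_le_right)
  -- blocks of `S` are fixed by `E`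
  have hfix : ∀ S ∈ 𝒮, ∀ f : MonoidAlgebra k G, IsBlockOf S f → f ∈ Fix (cj k G) E := by
    intro S hS f hf
    have h5 : E ≤ stabE f := by
      refine sup_le ?_ (sSup_le ?_)
      · exact (h1 S hS).1.trans (le_stabE hf)
      · intro S' hS'
        by_cases hSS : S = S'
        · rw [← hSS]; exact le_stabE hf
        · intro y hy
          rw [mem_stabE]
          exact cj_eq_self_of_commute hf.mem.1 fun s hs => (h2 S hS S' hS' hSS s hs y hy).symm
    exact fun g hg => h5 hg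
  -- normality of `S` in `E`
  have hSinv : ∀ S ∈ 𝒮, ∀ y ∈ E, ∀ s ∈ S, y * s * y⁻¹ ∈ S := by
    intro S hS
    have h5 : E ≤ Subgroup.normalizer (S : Set G) := by
      refine sup_le ?_ (sSup_le ?_)
      · exact (h1 S hS).1.trans Subgroup.le_normalizer
      · intro S' hS'
        by_cases hSS : S = S'
        · rw [← hSS]; exact Subgroup.le_normalizer
        · intro y hy
          rw [Subgroup.mem_normalizer_iff]
          intro s
          have h6 := h2 S hS S' hS' hSS
          constructor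
          · intro hs
            rw [← h6 s hs y hy, mul_inv_cancel_right]
            exact hs
          · intro hs
            have h7 := h6 _ hs y hy
            have h8 : y * s * y⁻¹ = s := by
              calc y * s * y⁻¹ = y⁻¹ * (y * (y * s * y⁻¹)) := by group
                _ = y⁻¹ * (y * s * y⁻¹ * y) := by rw [h7]
                _ = s := by group
            rwa [h8] at hs
    intro y hy s hs
    exact (Subgroup.mem_normalizer_iff.mp (h5 hy) s).mp hs
  -- the set `J`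
  let J : Set (Subgroup G) := {S | S ∈ 𝒮 ∧ ∃ z ∈ SubAlg k S, z ∈ Fix (cj k G) W ∧
    tr (cj k G) W S z * e = e}
  have hconjW : ∀ g : G, conjS g W = W := by
    intro g
    ext y
    rw [mem_conjS]
    constructor
    · intro hy
      have := hWn.conj_mem _ hy g
      simpa [mul_assoc] using this
    · intro hy
      have := hWn.conj_mem _ hy g⁻¹
      simpa [mul_assoc] using this
  have hJ : ∀ S, S ∉ J := by
    intro S0 hS0
    have hJconj : ∀ S ∈ J, ∀ g : G, S.map (MulAut.conj g).toMonoidHom ∈ J := by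
      rintro S ⟨hS, z, hz, hzW, hze⟩ g
      refine ⟨h3 S hS g, cj k G g z, ?_, ?_, ?_⟩
      · exact SuppIn.conj hz g fun s hs => mem_conjS.mpr (by simpa [mul_assoc] using hs)
      · have := conj_mem_Fix hzW g (H' := W) fun h hh => by
          simpa using hWn.conj_mem h hh g⁻¹
        exact this
      · have h5 := cj_tr g (K := S) hzW
        rw [hconjW] at h5
        change tr (cj k G) W (conjS g S) (cj k G g z) * e = e
        rw [← h5]
        conv_lhs => rhs; rw [← hest g]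
        rw [← map_mul, hze, hest]
    have hJfin : J.Finite := Set.toFinite J
    let s : Finset (Subgroup G) := hJfin.toFinset
    have hmem : ∀ {S}, S ∈ s ↔ S ∈ J := hJfin.mem_toFinset
    have hsup : s.sup id = sSup J := by
      rw [Finset.sup_id_eq_sSup, hJfin.coe_toFinset]
    choose! z hz using fun (S : Subgroup G) (hS : S ∈ J) => hS.2
    obtain ⟨z', hz', hz'W, hz'e⟩ := exists_prod_tr (k := k) (id : Subgroup G → Subgroup G)
      (W := W) e z s
      (fun S hS => (h1 S (hmem.mp hS).1).1)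
      (fun S hS => (h1 S (hmem.mp hS).1).2.2.2.1)
      (fun S hS S' hS' hne => h2 S (hmem.mp hS).1 S' (hmem.mp hS').1 hne)
      (fun S hS => hWcentE S (hmem.mp hS).1)
      (fun S hS => (hz S (hmem.mp hS)).1)
      (fun S hS => (hz S (hmem.mp hS)).2.1)
      (fun S hS => (hz S (hmem.mp hS)).2.2)
    rw [hsup] at hz' hz'e
    set N := W ⊔ sSup J with hN
    have hNn : N.Normal := hsupn J hJconj
    have hWN : W ≤ N := le_sup_left
    obtain ⟨f, hf, hbf⟩ := exists_isPrimIn (ZAlg k N) (by exact ZAlg_comm) hb.ne_zero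
    have hz'b : tr (cj k G) W N z' * b = b := by
      conv_lhs => rw [← hbee, ← hbc, ← mul_assoc, hz'e]
      rw [hbc, hbee]
    obtain ⟨z2, hz2, hz2W, hfz2⟩ := block_tr hWN hf (by rwa [hbc]) hz' hz'W hz'b
    have hnd : ¬ p ∣ Y0.relIndex W := by rw [hrelW]; exact hpZ
    have h5 := eq_tr_of_not_dvd p hnd hz2W
    have hcard := hNR N Y0 hNn hY0n ((le_sup_left (a := Z) (b := Y0)).trans hWN)
      ((sup_le hWC (sSup_le fun S hS => (h1 S hS.1).2.1)).trans hCB) (hY0W.trans hWN) hY0p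
      (fun y hy x hx => by
        have h6 : N ≤ C := sup_le hWC (sSup_le fun S hS => (h1 S hS.1).2.1)
        exact hcent y (hY0W hy) x (h6 hx)) f hf hbf
      ⟨_, Subalgebra.smul_mem _ hz2 _, Subalgebra.smul_mem _ (Fix_mono _ hY0W hz2W) _, by
        rw [hfz2]
        conv_lhs => rw [h5]
        rw [tr_tr (Subalgebra.smul_mem _ (Fix_mono _ hY0W hz2W) _) hY0W hWN]⟩
    rw [← hcardW] at hcard
    have hNW : W = N := Subgroup.eq_of_le_of_card_ge hWN hcard.le
    apply (h1 S0 hS0.1).2.2.1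
    refine le_antisymm ?_ (h1 S0 hS0.1).1
    rw [hNW]
    exact (le_sSup hS0).trans le_sup_right
  -- the elements `r_S`
  have hr : ∀ S ∈ 𝒮, ∃ r ∈ R, r ∈ S ∧ r ∉ W := by
    intro S hS
    obtain ⟨f, hf, hef⟩ := exists_isPrimIn (ZAlg k S) (by exact ZAlg_comm) he.ne_zero
    have hfE := hfix S hS f hf
    have hfe : f * e = e := mul_block_eq (hSE S hS) hf hfE he hef
    obtain ⟨y, hy, z, hz, hzF, hfz⟩ := covering_rel (hSE S hS) inf_le_left (hSinv S hS) hf
      he.idem (by rw [hfe]; exact he.ne_zero) ha'E ha'F hea'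
    by_contra hcon
    push Not at hcon
    have hle : S ⊓ conjS y R ≤ W := by
      intro r hr
      obtain ⟨hr1, hr2⟩ := Subgroup.mem_inf.mp hr
      rw [mem_conjS] at hr2
      have h5 : y⁻¹ * r * y ∈ S := by
        have := hSinv S hS y⁻¹ (E.inv_mem hy) r hr1
        rwa [inv_inv] at this
      have h6 := hcon _ hr2 h5
      have := hWn.conj_mem _ h6 y
      simpa [mul_assoc] using this
    apply hJ S
    refine ⟨hS, tr (cj k G) (S ⊓ conjS y R) W z, tr_mem_SubAlg (h1 S hS).1 hz, tr_mem_Fix hzF, ?_⟩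
    rw [tr_tr hzF hle (h1 S hS).1, ← hfz, hfe]
  have hrD : ∀ S ∈ 𝒮, ∃ r ∈ D, r ∈ S ∧ r ∉ W := by
    intro S hS
    obtain ⟨r, hr1, hr2, hr3⟩ := hr _ (h3 S hS x)
    have h5 := (Subgroup.mem_inf.mp hr1).2
    rw [mem_conjS] at h5
    rw [mem_map_conj] at hr2
    refine ⟨_, h5, hr2, fun h6 => hr3 ?_⟩
    have := hWn.conj_mem _ h6 x
    simpa [mul_assoc] using this
  choose! r hr1 hr2 hr3 using hr
  have hcard𝒮 : Nat.card 𝒮 ≤ n := by
    refine le_trans (Nat.card_le_card_of_injective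
      (fun S : 𝒮 => (⟨r S.1, hr1 S.1 S.2⟩ : R)) ?_) hRcard
    rintro ⟨S, hS⟩ ⟨S', hS'⟩ hSS
    have h5 : r S = r S' := congrArg Subtype.val hSS
    by_contra hne
    have hne' : S ≠ S' := fun h => hne (Subtype.ext h)
    apply hr3 S hS
    refine (h1 S hS).2.2.2.1 _ (hr2 S hS) fun y hy => ?_
    rw [h5]
    exact (h2 S hS S' hS' hne' y hy _ (hr2 S' hS')).symm
  -- the Sylow subgroups of the components
  have hRp : IsPGroup p R := by
    have h5 : IsPGroup p (conjS x D) := hDp.map _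
    exact h5.to_le inf_le_right
  have hSm : ∀ S ∈ 𝒮, IsLocalChar p n (S.map (QuotientGroup.mk' W)) →
      ∃ P : Sylow p (S.map (QuotientGroup.mk' W)), Nat.card P ≤ n := by
    intro S hS hCT
    by_contra hSyl
    push Not at hSyl
    have hWS : W ≤ S := (h1 S hS).1
    obtain ⟨f, hf, hef⟩ := exists_isPrimIn (ZAlg k S) (by exact ZAlg_comm) he.ne_zero
    have hfE := hfix S hS f hf
    have hfe : f * e = e := mul_block_eq (hSE S hS) hf hfE he hef
    obtain ⟨y, hy, z, hz, hzF, hfz⟩ := covering_rel (hSE S hS) inf_le_left (hSinv S hS) hf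
      he.idem (by rw [hfe]; exact he.ne_zero) ha'E ha'F hea'
    have hR1p : IsPGroup p (S ⊓ conjS y R : Subgroup G) := by
      have h5 : IsPGroup p (conjS y R) := hRp.map _
      exact h5.to_le inf_le_right
    have hR1n : Nat.card (S ⊓ conjS y R : Subgroup G) ≤ n := by
      refine (Nat.card_le_card_of_injective _ (Subgroup.inclusion_injective inf_le_right)).trans ?_
      rw [show Nat.card (conjS y R) = Nat.card R from
        Nat.card_congr (R.equivMapOfInjective _ (MulAut.conj y).injective).symm.toEquiv]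
      exact hRcard
    obtain ⟨R', hR', z', hz', hzF', hfz', hor⟩ := defect_char_type (k := k) (p := p) (Y := Y0)
      hWS hZ hpZ hY0p (fun y hy g hg => hcent y (hY0W hy) g ((h1 S hS).2.1 hg)) hWdef hCT hf
      hR1p hR1n inf_le_left hz hzF hfz
    rcases hor with hor | hnd
    · apply hJ S
      refine ⟨hS, tr (cj k G) R' W z', tr_mem_SubAlg hWS hz', tr_mem_Fix hzF', ?_⟩
      rw [tr_tr hzF' hor hWS, ← hfz', hfe]
    · let g : S →* (S.map (QuotientGroup.mk' W)) := (QuotientGroup.mk' W).subgroupMap S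
      have hg : Function.Surjective g := (QuotientGroup.mk' W).subgroupMap_surjective S
      have hR'p : IsPGroup p R' := hR1p.to_le hR'
      have h5 : IsPGroup p ((R'.subgroupOf S).map g) :=
        (hR'p.comap_of_injective S.subtype S.subtype_injective).map g
      have h6 := hSyl (h5.toSylow fun h => hnd (h.trans (Subgroup.index_map_dvd _ hg)))
      refine absurd h6 (not_lt.mpr ?_)
      change Nat.card ((R'.subgroupOf S).map g) ≤ n
      refine (Nat.card_le_card_of_surjective _ (g.subgroupMap_surjective (R'.subgroupOf S))).trans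
        ?_
      have hR'S : R' ≤ S := hR'.trans inf_le_left
      rw [Nat.card_congr (Subgroup.subgroupOfEquivOfLe hR'S).toEquiv]
      exact (Nat.card_le_card_of_injective _ (Subgroup.inclusion_injective hR')).trans hR1n
  have hrelWZ : Z.relIndex W ≤ n := by
    have h5 := Subgroup.card_mul_index (Z.subgroupOf W)
    rw [hcardW, Nat.card_congr (Subgroup.subgroupOfEquivOfLe (le_sup_left : Z ≤ W)).toEquiv] at h5
    have h6 : Z.relIndex W = Nat.card Y0 := Nat.eq_of_mul_eq_mul_left Nat.card_pos h5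
    rw [h6]
    exact (Nat.card_le_card_of_injective _ (Subgroup.inclusion_injective inf_le_left)).trans
      hVcard
  have hCidx : C.index ≤ n ! := by
    have h5 : C = C' := by rw [hCdef, hBdef, inf_top_eq]
    rw [h5]
    exact (index_centralizer_le V).trans (Nat.factorial_le hVcard)
  exact ⟨C, W, Y0, hCn, hWn, hY0n, 𝒮, hY0p, rfl, hWC, hcent, hrelWZ, hCidx, h1, h2, h3, h4,
    hcard𝒮, hSm, inf_le_left.trans hVD, hrD⟩

end Vale.Agent.P180.R2.H365
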