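import Vale.Agent.P180.R2.H954.LocCP

/-!
P180: the small idempotent of a normal subgroup `X = X₀ A_1 ... A_r`, where the `A_j` are pairwise
commuting, permuted by `G`, and have bounded corners.
-/

set_option linter.all false

namespace Vale.Agent.P180.R2.H365

open Vale.Agent.P180 Vale.Agent.P180.H768.Gd Vale.Agent.P180.R2.H799
  Vale.Agent.P180.R2.H12 Vale.Agent.P180.R2.H47 Vale.Agent.P180.R2.H954

section Loc

variable {k : Type*} [Field k] [IsAlgClosed k] {p : ℕ} [Fact p.Prime] [CharP k p]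

/-- The local theorem at the level of `X`. -/
theorem loc_x {r C C₀ : ℕ} {G : Type} [Group G] [Finite G] (F : Fam G r ⊤)
    {X X₀ D : Subgroup G} [X.Normal] [X₀.Normal] (hXX : X = X₀ ⊔ F.μ.range)
    (hcomm : ∀ j, ∀ x ∈ X₀, ∀ y ∈ F.A j, x * y = y * x)
    (hinj : ∀ i j, F.A i ≤ F.A j → i = j)
    {b a : MonoidAlgebra k G} (hb : IsBlockOf (⊤ : Subgroup G) b) (hD : IsPGroup p D)
    (ha : a ∈ Fix (cj k G) D) (hba : b = tr (cj k G) D ⊤ a)
    (hST : ∀ N : Subgroup G, N.Normal → ∀ e : MonoidAlgebra k G, IsBlockOf N e → b * e ≠ 0 →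
      ∀ g, cj k G g e = e)
    (h0 : ∀ P ≤ D, ∀ a' ∈ Fix (cj k G) P, b = tr (cj k G) P ⊤ a' → br P b ≠ 0 →
      ∃ f₀ ∈ SubAlg k X₀, f₀ ∈ Fix (cj k G) P ∧ f₀ * f₀ = f₀ ∧ br P (f₀ * b) ≠ 0 ∧
        ∀ e₀ : MonoidAlgebra k G, IsBlockOf X₀ e₀ → e₀ ∈ Fix (cj k G) ⊤ → e₀ * b = b →
          (∃ z ∈ SubAlg k X₀, z ∈ Fix (cj k G) (X₀ ⊓ P) ∧
            e₀ = tr (cj k G) (X₀ ⊓ P) X₀ (f₀ * z)) → br (X₀ ⊓ P) (f₀ * e₀) ≠ 0 →
          Module.finrank k (NN (SubAlg k X₀) (e₀ * f₀) (e₀ * f₀)) ≤ C₀)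
    (hcor : ∀ j, ∀ R ≤ D, (∀ x ∈ R, ∀ s ∈ F.A j, x * s * x⁻¹ ∈ F.A j) →
      ∀ e : MonoidAlgebra k G, Below b (F.A j) e → e ∈ Fix (cj k G) R → br R e ≠ 0 →
      (∃ z ∈ SubAlg k (F.A j), z ∈ Fix (cj k G) (F.A j ⊓ R) ∧
        e = tr (cj k G) (F.A j ⊓ R) (F.A j) z) →
      (∃ z ∈ SubAlg k (F.A j), z ∈ Fix (cj k G) R ∧ e = tr (cj k G) R (F.A j ⊔ R) z) →
      Cor C (F.A j) R e) :
    ∃ (P : Subgroup G) (a' e i : MonoidAlgebra k G), P ≤ D ∧ a' ∈ Fix (cj k G) P ∧
      b = tr (cj k G) P ⊤ a' ∧ IsBlockOf X e ∧ e ∈ Fix (cj k G) ⊤ ∧ e * b = b ∧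
      i ∈ SubAlg k X ∧ i ∈ Fix (cj k G) P ∧ i * i = i ∧ i * e = i ∧ br P (i * b) ≠ 0 ∧
      Module.finrank k (NN (SubAlg k X) i i) ≤ C₀ * C ^ r := by
  obtain ⟨P, hPD, a', ha', hba', c, hc, hc0⟩ := exists_min_defect hb ha hba
  have hP : IsPGroup p P := hD.to_le hPD
  have hbr : br P b ≠ 0 := br_ne_zero_of_coeff hc hc0
  have hbc : ∀ z : MonoidAlgebra k G, z * b = b * z := fun z =>
    commute_of_mem (SubAlg_top z) hb.mem.2
  have hbF : ∀ S : Subgroup G, b ∈ Fix (cj k G) S := fun S => Fix_mono _ le_top hb.mem.2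
  have hfin : FiniteDimensional k (MonoidAlgebra k G) :=
    Module.Finite.equiv (MonoidAlgebra.coeffLinearEquiv k (M := G) (S := k)).symm
  -- the block of `kX`
  obtain ⟨e, he, hbe⟩ := exists_covered (k := k) (X := X) hb.ne_zero
  have heT : e ∈ Fix (cj k G) ⊤ := fun g _ => hST X inferInstance e he hbe g
  have heb : e * b = b := mul_eq_of_stable hb he heT (by rw [hbc]; exact hbe)
  -- the block of `kX₀`
  obtain ⟨e₀, he₀, hbe₀⟩ := exists_covered (k := k) (X := X₀) hb.ne_zero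
  have heT₀ : e₀ ∈ Fix (cj k G) ⊤ := fun g _ => hST X₀ inferInstance e₀ he₀ hbe₀ g
  have heb₀ : e₀ * b = b := mul_eq_of_stable hb he₀ heT₀ (by rw [hbc]; exact hbe₀)
  obtain ⟨f₀, hf₀X, hf₀P, hf₀f₀, hf₀b, hf₀C⟩ := h0 P hPD a' ha' hba' hbr
  have hX₀X : X₀ ≤ X := by rw [hXX]; exact le_sup_left
  have hAX : ∀ j, F.A j ≤ X := by
    intro j x hx
    rw [hXX]
    exact Subgroup.mem_sup_right ⟨_, F.μ_single j ⟨x, hx⟩⟩
  have hμ : F.μ.range = ⨆ j, F.A j := Subgroup.noncommPiCoprod_range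
  have hXS : ∀ j, ∀ x ∈ X, ∃ s ∈ F.A j, ∃ c ∈ Subgroup.centralizer (F.A j : Set G),
      x = s * c := by
    intro j x hx
    have h1 : X ≤ F.A j ⊔ Subgroup.centralizer (F.A j : Set G) := by
      rw [hXX, hμ]
      refine sup_le ?_ (iSup_le fun i => ?_)
      · refine le_trans (fun y hy => ?_) le_sup_right
        rw [Subgroup.mem_centralizer_iff]
        exact fun s hs => (hcomm j y hy s hs).symm
      · by_cases hij : i = j
        · subst hij; exact le_sup_left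
        · refine le_trans (fun y hy => ?_) le_sup_right
          rw [Subgroup.mem_centralizer_iff]
          exact fun s hs => (F.comm i j hij y hy s hs).symm
    obtain ⟨s, hs, c, hc, h⟩ := mem_sup_of_commute
      (fun s hs c hc => Subgroup.mem_centralizer_iff.mp hc s hs) (h1 hx)
    exact ⟨s, hs, c, hc, h.symm⟩
  -- the blocks of the factors
  choose ε hε using fun j => exists_below (hAX j) (hXS j) he heb
  have hεE : ∀ (g : G) (j : Fin r), cj k G g (ε j) = ε (F.σ ⟨g, trivial⟩ j) := by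
    intro g j
    have h1 := (hε j).1.conj (hbF ⊤) g
    rw [show conjS g (F.A j) = F.A (F.σ ⟨g, trivial⟩ j) from Fam_conjS F ⟨g, trivial⟩ j] at h1
    exact h1.eq hb.ne_zero (hε _).1
  let F' : Fam G r P := F.res le_top
  have hstP : ∀ j, F'.st j ≤ P := F'.st_le
  have hnst : ∀ j, ∀ x ∈ F'.st j, ∀ s ∈ F.A j, x * s * x⁻¹ ∈ F.A j := by
    rintro j _ ⟨d, hd, rfl⟩ s hs
    have h1 := F'.conj d j s hs
    rw [hd] at h1
    exact h1
  have hAst : ∀ j, F.A j ⊓ P ≤ F'.st j := by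
    rintro j x ⟨hx, hxP⟩
    refine ⟨⟨x, hxP⟩, ?_, rfl⟩
    symm
    apply hinj
    intro s hs
    have h1 := F'.conj ⟨x, hxP⟩ j (x⁻¹ * s * x) ((F.A j).mul_mem ((F.A j).mul_mem
      ((F.A j).inv_mem hx) hs) hx)
    have h2 : x * (x⁻¹ * s * x) * x⁻¹ = s := by group
    change x * (x⁻¹ * s * x) * x⁻¹ ∈ _ at h1
    rwa [h2] at h1
  have hcor' : ∀ j, Cor C (F.A j) (F'.st j) (ε j) := by
    intro j
    obtain ⟨h1, h2, h3, h4⟩ := (hε j).1.exists_tr (hAX j) (hXS j) hP hb ha' hba' hbr he heT heb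
      (hstP j) (hAst j) (hnst j)
    exact hcor j _ ((hstP j).trans hPD) (hnst j) _ (hε j).1 h1 h2 h3 h4
  have hprd : Fam.prd ε * b = b := prd_mul_eq fun j => (hε j).1.mul
  have hεS : ∀ j, ε j ∈ SubAlg k (F'.A j) := fun j => (hε j).1.block.mem.1
  have hεq : F'.Eqv ε := fun d j => hεE d j
  set w : MonoidAlgebra k G := br P (f₀ * b) with hw
  have hfb : f₀ * b ∈ Fix (cj k G) P := Subalgebra.mul_mem _ hf₀P (hbF P)
  have hcommX : ∀ x ∈ SubAlg k F.μ.range, ∀ y ∈ SubAlg k X₀, x * y = y * x := by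
    intro x hx y hy
    refine comm_SubAlg (A := F.μ.range) (B := X₀) ?_ hx hy
    intro u hu v hv
    have h1 : F.μ.range ≤ Subgroup.centralizer {v} := by
      rw [hμ]
      refine iSup_le fun j u hu => ?_
      rw [Subgroup.mem_centralizer_iff]
      rintro _ rfl
      exact hcomm j _ hv u hu
    exact (Subgroup.mem_centralizer_iff.mp (h1 hu) v rfl).symm
  obtain ⟨h, hhA, hhE, hhI, hhP, hhne⟩ := Fam.tame (F := F') hP (e := ε) hεS hεq
    (fun j => (hε j).1.block.idem.eq)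
    (fun j f => Module.finrank k (NN (SubAlg k (F.A j)) (ε j * f) (ε j * f)) ≤ C)
    (by
      intro d j f hf
      change Module.finrank k (NN (SubAlg k (F.A (F'.σ d j))) _ _) ≤ C
      have h1 : ε (F'.σ d j) * cj k G (d : G) f = cj k G (d : G) (ε j * f) := by
        rw [map_mul]
        congr 1
        exact (hεq d j).symm
      rw [h1]
      have h2 : F.A (F'.σ d j) = conjS (d : G) (F.A j) := (Fam_conjS F' d j).symm
      rw [h2, finrank_NN_conj]
      exact hf)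
    (fun j => by
      obtain ⟨m, f, hf, hfs⟩ := hcor' j
      exact ⟨m, f, fun l => ⟨(hf l).1, (hf l).2.1, (hf l).2.2.1, (hf l).2.2.2⟩, hfs⟩)
    (w := w)
    (by
      intro x hx
      have hxP : x ∈ SubAlg k (Subgroup.centralizer (P : Set G)) := SubAlg_mono inf_le_right hx
      have hxF : x ∈ Fix (cj k G) P := H365.fix_of_cent hxP
      have hx' : x ∈ SubAlg k F.μ.range := SubAlg_mono inf_le_left hx
      have h1 : x * (f₀ * b) = f₀ * b * x := by
        rw [← mul_assoc, hcommX x hx' f₀ hf₀X, mul_assoc, hbc x, mul_assoc]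
      rw [hw, ← br_of_cent hxP, ← br_mul hP hxF hfb, ← br_mul hP hfb hxF, h1])
    (by
      rw [hw, ← br_mul hP hfb (F'.prd_fix hεS hεq), mul_assoc, ← hbc, hprd]
      exact hf₀b)
  -- the idempotent
  have hHX : Fam.prd h ∈ SubAlg k F.μ.range := Fam.prd_mem (F := F') hhA
  have hHP : Fam.prd h ∈ Fix (cj k G) P := F'.prd_fix hhA hhE
  have hHH : Fam.prd h * Fam.prd h = Fam.prd h := by
    rw [F'.prd_mul hhA hhA]
    congr 1
    funext j
    exact hhI j
  have hfH : f₀ * Fam.prd h = Fam.prd h * f₀ := (hcommX _ hHX f₀ hf₀X).symm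
  set f : MonoidAlgebra k G := f₀ * Fam.prd h with hf
  have hff : f * f = f := by
    calc f * f = f₀ * (Fam.prd h * f₀) * Fam.prd h := by rw [hf]; simp only [mul_assoc]
      _ = (f₀ * f₀) * (Fam.prd h * Fam.prd h) := by rw [← hfH, hf]; simp only [mul_assoc]
      _ = f := by rw [hf₀f₀, hHH]
  have hfP : f ∈ Fix (cj k G) P := Subalgebra.mul_mem _ hf₀P hHP
  have hμX : F.μ.range ≤ X := by rw [hXX]; exact le_sup_right
  have hfX : f ∈ SubAlg k X :=
    Subalgebra.mul_mem _ (SubAlg_mono hX₀X hf₀X) (SubAlg_mono hμX hHX)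
  have hfb' : br P (f * b) ≠ 0 := by
    have h1 : f * b = f₀ * b * Fam.prd h := by
      rw [hf, mul_assoc, hbc (Fam.prd h), ← mul_assoc]
    rw [h1, br_mul hP hfb hHP]
    exact hhne
  have hec' : ∀ z : MonoidAlgebra k G, z * e = e * z := fun z =>
    commute_of_mem (SubAlg_top z) heT
  refine ⟨P, a', e, e * f, hPD, ha', hba', he, heT, heb, Subalgebra.mul_mem _ he.mem.1 hfX,
    Subalgebra.mul_mem _ (Fix_mono _ le_top heT) hfP, ?_, ?_, ?_, ?_⟩
  · calc e * f * (e * f) = e * (f * e) * f := by simp only [mul_assoc]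
      _ = (e * e) * (f * f) := by rw [hec']; simp only [mul_assoc]
      _ = e * f := by rw [he.idem.eq, hff]
  · rw [mul_assoc, hec' f, ← mul_assoc, he.idem.eq]
  · have h1 : e * f * b = f * b := by
      rw [← hec', mul_assoc, heb]
    rw [h1]
    exact hfb'
  -- the dimension
  have hec : ∀ z : MonoidAlgebra k G, z * e = e * z := fun z =>
    commute_of_mem (SubAlg_top z) heT
  have he₀c : ∀ z : MonoidAlgebra k G, z * e₀ = e₀ * z := fun z =>
    commute_of_mem (SubAlg_top z) heT₀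
  have hεX : ∀ j, ε j ∈ Fix (cj k G) X := fun j => (hε j).2.1
  have hE₁X : Fam.prd ε ∈ Fix (cj k G) X := by
    refine Subalgebra.list_prod_mem _ fun x hx => ?_
    obtain ⟨j, -, rfl⟩ := List.mem_map.mp hx
    exact hεX j
  have hE₁f : Fam.prd ε * f = f * Fam.prd ε := (commute_of_mem hfX hE₁X).symm
  have hE₁e : Fam.prd ε * e = e := prd_mul_eq fun j => (hε j).2.2
  have he₀e : e₀ * e = e := by
    refine mul_block_eq hX₀X he₀ (Fix_mono _ le_top heT₀) he ?_
    intro h1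
    apply hb.ne_zero
    rw [← heb, ← heb₀, ← mul_assoc, h1, zero_mul]
  have hG₀ : (e₀ * f₀) * (e₀ * f₀) = e₀ * f₀ := by
    rw [mul_assoc, ← mul_assoc f₀, he₀c f₀, mul_assoc e₀ f₀, hf₀f₀, ← mul_assoc, he₀.idem.eq]
  have hG₀X : e₀ * f₀ ∈ SubAlg k X₀ := Subalgebra.mul_mem _ he₀.mem.1 hf₀X
  have hGA : ∀ j, ε j * h j ∈ SubAlg k (F.A j) := fun j =>
    Subalgebra.mul_mem _ (hεS j) (hhA j)
  have hGI : ∀ j, (ε j * h j) * (ε j * h j) = ε j * h j := by
    intro j
    have h1 : h j * ε j = ε j * h j := commute_of_mem (hhA j) (hε j).1.block.mem.2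
    rw [mul_assoc, ← mul_assoc (h j), h1, mul_assoc (ε j) (h j), hhI, ← mul_assoc,
      (hε j).1.block.idem.eq]
  have hG₁ : Fam.prd (fun j => ε j * h j) = Fam.prd ε * Fam.prd h := (F'.prd_mul hεS hhA).symm
  obtain ⟨hl1, hl2, hl3⟩ := finrank_NN_list F.A F.comm (fun j => ε j * h j) hGI hGA
    (List.finRange r) (List.nodup_finRange r)
  have hsup : (⨆ i ∈ List.finRange r, F.A i) = F.μ.range := by
    rw [hμ]
    refine le_antisymm (iSup₂_le fun i _ => le_iSup F.A i) (iSup_le fun i => ?_)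
    exact le_iSup₂ (f := fun i (_ : i ∈ List.finRange r) => F.A i) i (List.mem_finRange i)
  rw [hsup] at hl2 hl3
  have hbound : Module.finrank k (NN (SubAlg k X) (e * f) (e * f)) ≤ C₀ * C ^ r := by
    have h1 : (e₀ * f₀) * Fam.prd (fun j => ε j * h j) = e₀ * Fam.prd ε * f := by
      rw [hG₁, hf]
      have h2 : f₀ * Fam.prd ε = Fam.prd ε * f₀ :=
        commute_of_mem (SubAlg_mono hX₀X hf₀X) hE₁X
      calc e₀ * f₀ * (Fam.prd ε * Fam.prd h) = e₀ * (f₀ * Fam.prd ε) * Fam.prd h := by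
            simp only [mul_assoc]
        _ = _ := by rw [h2]; simp only [mul_assoc]
    have h3 : NN (SubAlg k X) (e * f) (e * f) ≤ NN (SubAlg k X)
        ((e₀ * f₀) * Fam.prd (fun j => ε j * h j)) ((e₀ * f₀) * Fam.prd (fun j => ε j * h j)) := by
      rw [h1]
      apply NN_le
      · calc e₀ * Fam.prd ε * f * (e * f) = e₀ * Fam.prd ε * (f * e) * f := by
              simp only [mul_assoc]
          _ = e₀ * (Fam.prd ε * e) * (f * f) := by rw [hec]; simp only [mul_assoc]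
          _ = _ := by rw [hE₁e, he₀e, hff]
      · calc e * f * (e₀ * Fam.prd ε * f) = e * (f * e₀) * Fam.prd ε * f := by
              simp only [mul_assoc]
          _ = e * e₀ * (f * Fam.prd ε) * f := by rw [he₀c]; simp only [mul_assoc]
          _ = e * e₀ * Fam.prd ε * (f * f) := by rw [← hE₁f]; simp only [mul_assoc]
          _ = e₀ * (Fam.prd ε * e) * f := by
            rw [hff, ← hec e₀, mul_assoc e₀ e, ← hec (Fam.prd ε)]
          _ = _ := by rw [hE₁e, he₀e]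
    have h4 := finrank_NN_sup (A := X₀) (B := F.μ.range) (fun u hu v hv => by
      have h1 : F.μ.range ≤ Subgroup.centralizer {u} := by
        rw [hμ]
        refine iSup_le fun j y hy => ?_
        rw [Subgroup.mem_centralizer_iff]
        rintro _ rfl
        exact hcomm j _ hu y hy
      exact Subgroup.mem_centralizer_iff.mp (h1 hv) u rfl) hG₀ hl1 hG₀X hl2
    rw [← hXX] at h4
    refine (Submodule.finrank_mono h3).trans (h4.trans (Nat.mul_le_mul ?_ ?_))
    · obtain ⟨z, hz, hzF, -, hez⟩ := exists_full_tr hP he₀ heT₀ hb.idem heb₀ ha' hba' hf₀X hf₀P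
        hf₀f₀ hf₀b
      exact hf₀C e₀ he₀ heT₀ heb₀ ⟨z, hz, hzF, hez⟩
        (br_inf_ne_zero hP heT₀ (hbF ⊤) heb₀ hf₀P hf₀b)
    · refine hl3.trans ?_
      refine (List.prod_le_pow_card _ C ?_).trans (by simp)
      intro x hx
      obtain ⟨j, -, rfl⟩ := List.mem_map.mp hx
      exact hhP j
  exact hbound

end Loc

end Vale.Agent.P180.R2.H365
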